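import Mathlib
import Vale.Agent.P262.H716.Runs
import Vale.Agent.P262.H395.Tree

/-!
# P262, milestone 2, THR through classes: the lattice sum induction (STAR')

Abstract family of nodes `r` with label spaces `W r`, classes `kl r`, children `ch c r`.
`tau n r x` = average of the target payoff `g` over the labels exactly `n` levels below `r`, with
the weights `wt`.  If the payoff has the lattice sum bound at the target nodes, then so has every
`tau n`, with constants `(12 κ)^n`: on a run of lattice points of the same class the child node is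
fixed; the classes which occur satisfy `thr c ≤ max D`, so the sum over the classes is geometric.
-/

set_option linter.all false

open MeasureTheory ProbabilityTheory Set
open scoped ENNReal RealInnerProductSpace
open Vale.Agent.P262.H395 (fib mix Inv)
open Vale.Agent.P262.H395.Tree (InvN)

namespace Vale.Agent.P262.H711

variable {E : Type*} [NormedAddCommGroup E] [InnerProductSpace ℝ E] [FiniteDimensional ℝ E]
  [MeasurableSpace E] [BorelSpace E]

/-! ### averages and shifts inside the label space -/

lemma mix_add_mem {W : Submodule ℝ E} {w : E} (hw : w ∈ W) (x z : E) :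
    mix W (x + w) z = mix W x z + w := by
  unfold Vale.Agent.P262.H395.mix
  rw [map_add, Submodule.starProjection_eq_self_iff.mpr hw]
  abel

lemma fib_add_mem {W : Submodule ℝ E} {w : E} (hw : w ∈ W) (f : E → ℝ≥0∞) (x : E) :
    fib W f (x + w) = fib W (fun y => f (y + w)) x := by
  unfold Vale.Agent.P262.H395.fib
  simp_rw [mix_add_mem hw]

/-- bounding an average: only the points of the fibre matter -/
lemma fib_le_of {W : Submodule ℝ E} {f g : E → ℝ≥0∞} {x : E}
    (h : ∀ z, f (mix W x z) ≤ g (mix W x z)) : fib W f x ≤ fib W g x :=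
  lintegral_mono fun z => h z

lemma InvN.mix' {W : Submodule ℝ E} {f : E → ℕ} (hf : InvN W f) (x z : E) :
    f (mix W x z) = f x := by
  have h1 : mix W x z - x ∈ Wᗮ := by
    rw [← Submodule.starProjection_apply_eq_zero_iff, map_sub, H395.starProjection_mix, sub_self]
  have := hf x _ h1
  rwa [add_sub_cancel] at this

/-! ### the family -/

/-- nodes, label spaces, classes, weights -/
structure Fam (E : Type*) [NormedAddCommGroup E] [InnerProductSpace ℝ E] (ι : Type*) where
  ch : ℕ → ι → ι
  L : ι → Prop
  W : ι → Submodule ℝ E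
  kl : ι → E → ℕ
  wt : ℕ → ι → E → ℝ≥0∞

variable {ι : Type*}

open Classical in
/-- average of the payoff over the labels exactly `n` levels below -/
noncomputable def tau (F : Fam E ι) (g : ι → E → ℝ≥0∞) : ℕ → ι → E → ℝ≥0∞
  | 0, r, x => g r x
  | n + 1, r, x => if F.L r then 0 else
      fib (F.W r) (fun y => F.wt (F.kl r x) r y * tau F g n (F.ch (F.kl r x) r) y) x

/-- structural facts -/
structure Fam.Str (F : Fam E ι) (Ok : ι → Prop) (N : ℕ) : Prop where
  ok_ch : ∀ r x, Ok r → ¬ F.L r → Ok (F.ch (F.kl r x) r)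
  kl_inv : ∀ r, Ok r → InvN (F.W r) (F.kl r)
  kl_meas : ∀ r, Measurable (F.kl r)
  kl_le : ∀ r x, Ok r → F.kl r x ≤ N
  wt_meas : ∀ c r, Measurable (F.wt c r)
  wt_add : ∀ c r, Ok r → ∀ y, ∀ w ∈ F.W r, F.wt c r (y + w) = F.wt c r y

lemma measurable_tau {F : Fam E ι} {Ok : ι → Prop} {N : ℕ} (hF : F.Str Ok N)
    {g : ι → E → ℝ≥0∞} (hg : ∀ r, Measurable (g r)) :
    ∀ n r, Measurable (tau F g n r)
  | 0, r => hg r
  | n + 1, r => by
    have ih := measurable_tau hF hg n
    by_cases hL : F.L r
    · have : tau F g (n + 1) r = fun _ => 0 := by funext x; simp [tau, hL]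
      rw [this]; exact measurable_const
    · have h1 : tau F g (n + 1) r = fun x => (fun c x => fib (F.W r) (fun y => F.wt c r y *
          tau F g n (F.ch c r) y) x) (F.kl r x) x := by
        funext x; simp [tau, hL]
      rw [h1]
      exact H395.Tree.measurable_sel (F := fun c x => fib (F.W r) (fun y => F.wt c r y *
          tau F g n (F.ch c r) y) x)
        (fun c => H395.measurable_fib ((hF.wt_meas c r).mul (ih _))) (hF.kl_meas r)

/-- facts along a direction -/
structure Fam.Dir (F : Fam E ι) (Ok : ι → Prop) (e : E) (thr : ℕ → ℝ≥0∞) (α β : ℝ) (κ : ℝ≥0∞)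
    (D : ι → E → ℝ≥0∞) (Dk : ℕ → ι → E → ℝ≥0∞) (Hn : ℕ → ι → E → ℝ≥0∞)
    (p : ι → E → ℝ≥0∞) : Prop where
  e_mem : ∀ r, Ok r → e ∈ F.W r
  kl_conv : ∀ r, Ok r → ∀ c x (a t b : ℝ), a ≤ t → t ≤ b → c ≤ F.kl r (x + a • e) →
    c ≤ F.kl r (x + b • e) → c ≤ F.kl r (x + t • e)
  D_qc : ∀ r, Ok r → ∀ x (a t b : ℝ), a ≤ t → t ≤ b →
    D r (x + t • e) ≤ max (D r (x + a • e)) (D r (x + b • e))
  thr_le : ∀ r x, Ok r → thr (F.kl r x) ≤ Dk (F.kl r x) r x
  le_thr : ∀ r x, Ok r → 1 ≤ F.kl r x → Dk (F.kl r x) r x ≤ thr (F.kl r x - 1)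
  Dk_le : ∀ r x, Ok r → Dk (F.kl r x) r x ≤ D r x
  Dk_inv : ∀ c r, Ok r → Inv (F.W r) (Dk c r)
  Hn_meas : ∀ c r, Measurable (Hn c r)
  Hn_add : ∀ c r, Ok r → ∀ y, ∀ w ∈ F.W r, Hn c r (y + w) = Hn c r y
  child : ∀ r y, Ok r → ¬ F.L r →
    D (F.ch (F.kl r y) r) y ≤ Hn (F.kl r y) r y * Dk (F.kl r y) r y
  p_meas : ∀ r, Measurable (p r)
  p_add : ∀ r, Ok r → ∀ x (t : ℝ), p r (x + t • e) = p r x
  moment : ∀ r x, Ok r → ¬ F.L r → fib (F.W r) (fun y => F.wt (F.kl r x) r y *
    (Hn (F.kl r x) r y ^ α * p (F.ch (F.kl r x) r) y ^ β)) x ≤ κ * p r x ^ β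

section star

variable {F : Fam E ι} {Ok : ι → Prop} {N : ℕ} {e : E} {thr : ℕ → ℝ≥0∞} {α β : ℝ} {κ : ℝ≥0∞}
  {D : ι → E → ℝ≥0∞} {Dk Hn : ℕ → ι → E → ℝ≥0∞} {p : ι → E → ℝ≥0∞}
  {g : ι → E → ℝ≥0∞} {h : ℝ} {C0 : ℝ≥0∞}

/-- contribution of one class to the sum over the classes -/
noncomputable def Tc (thr : ℕ → ℝ≥0∞) (α : ℝ) (d : ℝ≥0∞) (c : ℕ) : ℝ≥0∞ :=
  open Classical in
  if thr c ≤ d then (if c = 0 then d else min (thr (c - 1)) d) ^ α else 0

/-- **STAR'.** -/
theorem star (hF : F.Str Ok N) (hD : F.Dir Ok e thr α β κ D Dk Hn p) (hα : 0 ≤ α)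
    (hsum : ∀ d, ∑ c ∈ Finset.Icc 0 N, Tc thr α d c ≤ 3 * d ^ α)
    (hg : ∀ r, Measurable (g r)) (hh : 0 ≤ h)
    (base : ∀ r, Ok r → ∀ x (J : ℕ), ∑ j ∈ Finset.range (J + 1), g r (x + ((j : ℝ) * h) • e) ≤
      C0 * (D r (x + ((J : ℝ) * h) • e) ^ α * p r x ^ β)) :
    ∀ (n : ℕ) (r : ι), Ok r → ∀ x (J : ℕ),
      ∑ j ∈ Finset.range (J + 1), tau F g n r (x + ((j : ℝ) * h) • e) ≤
        C0 * (12 * κ) ^ n * ((D r x ^ α + D r (x + ((J : ℝ) * h) • e) ^ α) * p r x ^ β) := by
  classical
  intro n
  induction n with
  | zero =>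
    intro r hr x J
    refine (base r hr x J).trans ?_
    rw [pow_zero, mul_one]
    gcongr
    exact le_add_self
  | succ n ih =>
    intro r hr x J
    by_cases hL : F.L r
    · have : ∀ j ∈ Finset.range (J + 1), tau F g (n + 1) r (x + ((j : ℝ) * h) • e) = 0 :=
        fun j _ => by simp [tau, hL]
      rw [Finset.sum_congr rfl this, Finset.sum_const_zero]
      exact zero_le
    set X : ℕ → E := fun j => x + ((j : ℝ) * h) • e with hX
    have he := hD.e_mem r hr
    have hXadd : ∀ a i : ℕ, X (a + i) = X a + ((i : ℝ) * h) • e := by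
      intro a i
      simp only [hX]
      push_cast
      rw [add_mul, add_smul]
      abel
    set DM : ℝ≥0∞ := max (D r x) (D r (X J)) with hDM
    have hDle : ∀ j ≤ J, D r (X j) ≤ DM := by
      intro j hj
      have h1 := hD.D_qc r hr x 0 ((j : ℝ) * h) ((J : ℝ) * h) (by positivity)
        (by gcongr)
      rw [zero_smul, add_zero] at h1
      exact h1
    set Kn : ℝ≥0∞ := C0 * (12 * κ) ^ n with hKn
    set B : ℕ → ℝ≥0∞ := fun c => 2 * (Kn * κ * (Tc thr α DM c * p r x ^ β)) with hB
    have hstep : ∑ j ∈ Finset.range (J + 1), tau F g (n + 1) r (X j) ≤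
        2 * ∑ c ∈ Finset.Icc 0 N, B c := by
      have hrw : ∀ j, tau F g (n + 1) r (X j) = (fun c j => fib (F.W r) (fun y => F.wt c r y *
          tau F g n (F.ch c r) y) (X j)) (F.kl r (X j)) j := by
        intro j; simp [tau, hL]
      simp_rw [hrw]
      refine H716.sum_runs (J := J) (kl := fun j => F.kl r (X j)) (f := 0) (N := N)
        (F := fun c j => fib (F.W r) (fun y => F.wt c r y * tau F g n (F.ch c r) y) (X j))
        ?_ (fun j _ => Nat.zero_le _) (fun j _ => hF.kl_le r _ hr) ?_
      · intro c a k b hak hkb _ h1 h2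
        exact hD.kl_conv r hr c x ((a : ℝ) * h) ((k : ℝ) * h) ((b : ℝ) * h) (by gcongr)
          (by gcongr) h1 h2
      · intro c a b _ _ hab hbJ hrun
        have hka : F.kl r (X a) = c := hrun a le_rfl hab
        have hkb : F.kl r (X b) = c := hrun b hab le_rfl
        have hOk : Ok (F.ch c r) := hka ▸ hF.ok_ch r (X a) hr hL
        obtain ⟨m, rfl⟩ := Nat.exists_eq_add_of_le hab
        -- the sum over the run as one average
        have e1 : ∑ j ∈ Finset.Icc a (a + m), fib (F.W r) (fun y => F.wt c r y *
            tau F g n (F.ch c r) y) (X j) =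
            fib (F.W r) (fun y => F.wt c r y * ∑ i ∈ Finset.range (m + 1),
              tau F g n (F.ch c r) (y + ((i : ℝ) * h) • e)) (X a) := by
          have e2 : ∑ j ∈ Finset.Icc a (a + m), fib (F.W r) (fun y => F.wt c r y *
              tau F g n (F.ch c r) y) (X j) = ∑ i ∈ Finset.range (m + 1),
                fib (F.W r) (fun y => F.wt c r y *
                  tau F g n (F.ch c r) y) (X (a + i)) := by
            rw [← Finset.sum_image (g := fun i => a + i) (f := fun j => fib (F.W r)
              (fun y => F.wt c r y * tau F g n (F.ch c r) y) (X j))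
              (fun i _ i' _ hii => by simpa using hii)]
            congr 1
            ext k
            simp only [Finset.mem_Icc, Finset.mem_image, Finset.mem_range]
            constructor
            · rintro ⟨h1, h2⟩
              exact ⟨k - a, by omega, by omega⟩
            · rintro ⟨i, h1, rfl⟩
              omega
          rw [e2]
          have e3 : ∀ i : ℕ, fib (F.W r) (fun y => F.wt c r y * tau F g n (F.ch c r) y)
              (X (a + i)) = fib (F.W r) (fun y => F.wt c r y *
                tau F g n (F.ch c r) (y + ((i : ℝ) * h) • e)) (X a) := by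
            intro i
            have hmem : ((i : ℝ) * h) • e ∈ F.W r := (F.W r).smul_mem _ he
            rw [hXadd, fib_add_mem hmem]
            congr 1
            funext y
            rw [hF.wt_add c r hr y _ hmem]
          simp_rw [e3]
          unfold Vale.Agent.P262.H395.fib
          rw [← lintegral_finset_sum]
          · simp_rw [Finset.mul_sum]
          · intro i _
            have hm : Measurable fun y : E => F.wt c r y *
                tau F g n (F.ch c r) (y + ((i : ℝ) * h) • e) :=
              (hF.wt_meas c r).mul ((measurable_tau hF hg n _).comp (measurable_id.add_const _))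
            exact hm.comp (H395.measurable_mix_right _ _)
        rw [e1]
        -- pointwise bound in the fibre
        have hDka : Dk c r (X a) ≤ DM := by
          have := hD.Dk_le r (X a) hr
          rw [hka] at this
          exact this.trans (hDle a (by omega))
        have hDkb : Dk c r (X (a + m)) ≤ DM := by
          have := hD.Dk_le r (X (a + m)) hr
          rw [hkb] at this
          exact this.trans (hDle (a + m) hbJ)
        have hthr : thr c ≤ DM := by
          have := hD.thr_le r (X a) hr
          rw [hka] at this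
          exact this.trans hDka
        have hT : ∀ j, F.kl r (X j) = c → Dk c r (X j) ≤ DM → Dk c r (X j) ^ α ≤ Tc thr α DM c := by
          intro j hj hjD
          unfold Tc
          rw [if_pos hthr]
          refine ENNReal.rpow_le_rpow ?_ hα
          split_ifs with h0
          · exact hjD
          · refine le_min ?_ hjD
            have := hD.le_thr r (X j) hr (by omega)
            rwa [hj] at this
        have hpt : ∀ z, (fun y => F.wt c r y * ∑ i ∈ Finset.range (m + 1),
            tau F g n (F.ch c r) (y + ((i : ℝ) * h) • e)) (mix (F.W r) (X a) z) ≤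
            (fun y => (Kn * (2 * Tc thr α DM c)) * (F.wt c r y *
              (Hn c r y ^ α * p (F.ch c r) y ^ β))) (mix (F.W r) (X a) z) := by
          intro z
          simp only
          set y := mix (F.W r) (X a) z with hy
          have hmem : ((m : ℝ) * h) • e ∈ F.W r := (F.W r).smul_mem _ he
          have hy' : y + ((m : ℝ) * h) • e = mix (F.W r) (X (a + m)) z := by
            rw [hXadd, mix_add_mem hmem]
          have hky : F.kl r y = c := by
            rw [hy, InvN.mix' (hF.kl_inv r hr)]; exact hka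
          have hky' : F.kl r (y + ((m : ℝ) * h) • e) = c := by
            rw [hy', InvN.mix' (hF.kl_inv r hr)]; exact hkb
          have h1 := ih (F.ch c r) hOk y m
          have h2 : D (F.ch c r) y ≤ Hn c r y * Dk c r (X a) := by
            have := hD.child r y hr hL
            rw [hky] at this
            rwa [show Dk c r y = Dk c r (X a) from (hD.Dk_inv c r hr).mix _ _] at this
          have h3 : D (F.ch c r) (y + ((m : ℝ) * h) • e) ≤ Hn c r y * Dk c r (X (a + m)) := by
            have := hD.child r (y + ((m : ℝ) * h) • e) hr hL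
            rw [hky', hD.Hn_add c r hr y _ hmem] at this
            rwa [show Dk c r (y + ((m : ℝ) * h) • e) = Dk c r (X (a + m)) from by
              rw [hy']; exact (hD.Dk_inv c r hr).mix _ _] at this
          have h4 : D (F.ch c r) y ^ α ≤ Hn c r y ^ α * Tc thr α DM c := by
            calc D (F.ch c r) y ^ α ≤ (Hn c r y * Dk c r (X a)) ^ α :=
                  ENNReal.rpow_le_rpow h2 hα
              _ = Hn c r y ^ α * Dk c r (X a) ^ α := ENNReal.mul_rpow_of_nonneg _ _ hα
              _ ≤ _ := by gcongr; exact hT a hka hDka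
          have h5 : D (F.ch c r) (y + ((m : ℝ) * h) • e) ^ α ≤ Hn c r y ^ α * Tc thr α DM c := by
            calc D (F.ch c r) (y + ((m : ℝ) * h) • e) ^ α ≤ (Hn c r y * Dk c r (X (a + m))) ^ α :=
                  ENNReal.rpow_le_rpow h3 hα
              _ = Hn c r y ^ α * Dk c r (X (a + m)) ^ α := ENNReal.mul_rpow_of_nonneg _ _ hα
              _ ≤ _ := by gcongr; exact hT (a + m) hkb hDkb
          calc F.wt c r y * ∑ i ∈ Finset.range (m + 1),
              tau F g n (F.ch c r) (y + ((i : ℝ) * h) • e)
              ≤ F.wt c r y * (Kn * ((D (F.ch c r) y ^ α +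
                D (F.ch c r) (y + ((m : ℝ) * h) • e) ^ α) * p (F.ch c r) y ^ β)) := by
                gcongr
            _ ≤ F.wt c r y * (Kn * ((Hn c r y ^ α * Tc thr α DM c +
                Hn c r y ^ α * Tc thr α DM c) * p (F.ch c r) y ^ β)) := by gcongr
            _ = _ := by ring
        have hfib := fib_le_of (W := F.W r) (x := X a) (f := fun y => F.wt c r y *
          ∑ i ∈ Finset.range (m + 1), tau F g n (F.ch c r) (y + ((i : ℝ) * h) • e))
          (g := fun y => (Kn * (2 * Tc thr α DM c)) * (F.wt c r y *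
              (Hn c r y ^ α * p (F.ch c r) y ^ β))) hpt
        refine hfib.trans ?_
        rw [H395.fib_mul (g := fun _ => Kn * (2 * Tc thr α DM c)) (f := fun y => F.wt c r y *
              (Hn c r y ^ α * p (F.ch c r) y ^ β)) (H395.inv_const _ _) ((hF.wt_meas c r).mul
          (((hD.Hn_meas c r).pow_const _).mul ((hD.p_meas _).pow_const _)))]
        have hmo := hD.moment r (X a) hr hL
        rw [hka] at hmo
        have hpa : p r (X a) = p r x := hD.p_add r hr x _
        rw [hpa] at hmo
        simp only [hB]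
        calc (Kn * (2 * Tc thr α DM c)) * fib (F.W r) (fun y => F.wt c r y *
              (Hn c r y ^ α * p (F.ch c r) y ^ β)) (X a)
            ≤ (Kn * (2 * Tc thr α DM c)) * (κ * p r x ^ β) := by gcongr
          _ = 2 * (Kn * κ * (Tc thr α DM c * p r x ^ β)) := by ring
    refine hstep.trans ?_
    simp only [hB]
    have e4 : ∑ c ∈ Finset.Icc 0 N, 2 * (Kn * κ * (Tc thr α DM c * p r x ^ β)) =
        2 * (Kn * κ) * p r x ^ β * ∑ c ∈ Finset.Icc 0 N, Tc thr α DM c := by
      rw [Finset.mul_sum]
      refine Finset.sum_congr rfl fun c _ => by ring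
    rw [e4]
    have hDM' : DM ^ α ≤ D r x ^ α + D r (X J) ^ α := by
      rcases le_total (D r x) (D r (X J)) with h1 | h1
      · rw [hDM, max_eq_right h1]; exact le_add_self
      · rw [hDM, max_eq_left h1]; exact le_self_add
    calc 2 * (2 * (Kn * κ) * p r x ^ β * ∑ c ∈ Finset.Icc 0 N, Tc thr α DM c)
        ≤ 2 * (2 * (Kn * κ) * p r x ^ β * (3 * (D r x ^ α + D r (X J) ^ α))) := by
          gcongr
          exact (hsum DM).trans (by gcongr)
      _ = C0 * (12 * κ) ^ (n + 1) * ((D r x ^ α + D r (X J) ^ α) * p r x ^ β) := by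
          rw [hKn, pow_succ]; ring

end star

end Vale.Agent.P262.H711
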