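import Vale.Agent.P262.H711.Dirn
import Vale.Agent.P262.H148.Fam
import Vale.Agent.P262.H816.Line
import Vale.Agent.P262.H703.Rg2
import Vale.Agent.P262.H118.Lay
import Vale.Agent.P262.H716.Base2
import Vale.Agent.P262.H108.Gap2
import Vale.Agent.P262.H606.Mom

/-!
# P262, milestone 2: (STAR') and (DIR) on `M2.Sys`

Base node `q` at or below the rotating node `jj m`, direction `e ∈ W q m`, layer `L` in the
coordinates of `q`; `(al, be) = (1/2, 0)` or `(1/4, 1/4)`, `th = 1/2`.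
-/

set_option linter.all false

open MeasureTheory ProbabilityTheory Set
open scoped ENNReal RealInnerProductSpace
open Vale.Agent.P262.H118 (Iv st en ON rotE tau wd wrd Mg Piece K2 El2 paths)
open Vale.Agent.P262.H395 (fib mix Inv inv_fib)
open Vale.Agent.P262.H395.Tree (InvN)

namespace Vale.Agent.P262.M2.Sys

variable {E : Type*} [NormedAddCommGroup E] [InnerProductSpace ℝ E] [FiniteDimensional ℝ E]
  [MeasurableSpace E] [BorelSpace E] (S : Sys E)

/-- loss per dimension -/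
noncomputable def kq : ℝ := 256 * S.kap ^ (1 / 2 : ℝ)

lemma kq_nonneg : 0 ≤ S.kq := by
  have := S.hkap
  unfold kq; positivity

lemma ow_eq_own (r : List ℕ) (c m : ℕ) (y : E) :
    S.ow r c m y = H711.own (S.W r m) (S.W (c :: r) m) y := rfl

lemma cw_half (hth : S.th = 1 / 2) (c : ℕ) (r : List ℕ) (m : ℕ) (y : E) :
    S.cw (c :: r) m y = ENNReal.ofReal ((S.kap ^ (Module.finrank ℝ (S.W (c :: r) m) -
      Module.finrank ℝ (S.W r m))) ^ (1 / 2 : ℝ) * Real.exp (‖S.ow r c m y‖ ^ 2 / 16)) := by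
  rw [cw_cons, hth]
  unfold od
  congr 3
  ring

variable {S}

/-- the two pairs of exponents -/
def Pair (al be : ℝ) : Prop := (al = 1 / 2 ∧ be = 0) ∨ (al = 1 / 4 ∧ be = 1 / 4)

lemma moment_sys {m : ℕ} (hm : S.mv.tm m < S.T) (hth : S.th = 1 / 2) (c : ℕ) {r : List ℕ} (hr : ¬ S.Leaf r m)
    {al be : ℝ} (hab : Pair al be) {q : E → ℝ≥0∞} (hq : Measurable q) (x : E) :
    fib (S.W r m) (fun y => S.cw (c :: r) m y * (S.hn c r m y ^ al * q y ^ be)) x ≤
      ENNReal.ofReal (S.kq ^ (Module.finrank ℝ (S.W (c :: r) m) - Module.finrank ℝ (S.W r m))) *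
        (fib (S.W r m) q x) ^ be := by
  have hd : 1 ≤ Module.finrank ℝ (S.W (c :: r) m) - Module.finrank ℝ (S.W r m) := by
    have h2 := S.finrank_succ_g hm (c := c) hr
    omega
  have hwt : ∀ y, S.cw (c :: r) m y ≤ H606.wtf (S.W r m) (S.W (c :: r) m) S.kap (1 / 2) y := by
    intro y
    refine le_of_eq ?_
    rw [S.cw_half hth]
    unfold H606.wtf
    rw [show (1 / 2 : ℝ) / 8 * ‖H606.oc (S.W r m) (S.W (c :: r) m) y‖ ^ 2 =
      ‖S.ow r c m y‖ ^ 2 / 16 by unfold H606.oc ow; ring]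
  have hHn : ∀ y, S.hn c r m y ≤ H606.hnf (S.W r m) (S.W (c :: r) m) y := by
    intro y
    exact le_of_eq rfl
  rcases hab with ⟨rfl, rfl⟩ | ⟨rfl, rfl⟩
  · exact H606.mom_half (S.W_le c r m) S.hkap.le hd hwt hHn hq x
  · exact H606.mom_half' (S.W_le c r m) S.hkap.le hd hwt hHn hq x

lemma line_lemma {W0 : Submodule ℝ E} {e : E} (he0 : e ∈ W0ᗮ) (he1 : ‖e‖ = 1) {h : ℝ} (hh : 0 < h)
    {al be : ℝ} (hab : Pair al be) : H711.LineLemma W0 e h (1 / 16) (al * (8 / 15)) 20 := by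
  intro w τ g hw hτ hg hwe hge H x0
  have hW : W0 ≤ (ℝ ∙ e)ᗮ := by
    rw [Submodule.le_orthogonal_iff_le_orthogonal]
    rwa [Submodule.span_singleton_le_iff_mem]
  refine H816.line_fib_exp he1 hW hτ hw hg hwe hge hh le_rfl ?_ ?_ H x0
  · rcases hab with ⟨rfl, -⟩ | ⟨rfl, -⟩ <;> norm_num
  · rcases hab with ⟨rfl, -⟩ | ⟨rfl, -⟩ <;> norm_num

theorem famS_dir {m : ℕ} (hm : S.mv.tm m < S.T) (hth : S.th = 1 / 2) (hk : S.kq ≤ 1) {q : List ℕ} {e : E}
    (he : e ∈ S.W q m) {L : Set E} (hL : MeasurableSet L) (hLe : ∀ y ∈ L, ∀ t : ℝ, y + t • e ∈ L)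
    {al be : ℝ} (hab : Pair al be) :
    (S.fam m).Dir (fun r => q <:+ r) e S.thr al be (ENNReal.ofReal S.kq)
      (fun r => S.DD r m) (fun c r => S.Dk c r m) (fun c r => S.hn c r m)
      (fun r => S.mu q L r m) where
  e_mem r hr := S.W_mono hr m he
  kl_conv r _ c x a t b hat htb h1 h2 := by
    show c ≤ S.kl r m (x + t • e)
    rcases hat.eq_or_lt with rfl | hat'
    · exact h1
    have hab' : 0 < b - a := by linarith
    have h3 := S.convex_kl r m c h1 h2 (a := (b - t) / (b - a)) (b := (t - a) / (b - a))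
      (by apply div_nonneg <;> linarith) (by apply div_nonneg <;> linarith) (by field_simp; ring)
    have h4 : ((b - t) / (b - a)) • (x + a • e) + ((t - a) / (b - a)) • (x + b • e) =
        x + t • e := by
      have e1 : (b - t) / (b - a) + (t - a) / (b - a) = 1 := by field_simp; ring
      have e2 : (b - t) / (b - a) * a + (t - a) / (b - a) * b = t := by field_simp; ring
      calc _ = ((b - t) / (b - a) + (t - a) / (b - a)) • x +
            ((b - t) / (b - a) * a + (t - a) / (b - a) * b) • e := by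
              simp only [smul_add, smul_smul, add_smul]; abel
        _ = _ := by rw [e1, e2, one_smul]
    rwa [h4] at h3
  D_qc r _ x a t b hat htb := by
    show S.DD r m (x + t • e) ≤ _
    rcases hat.eq_or_lt with rfl | hat'
    · exact le_max_left _ _
    have hab' : 0 < b - a := by linarith
    have h3 := S.DD_quasi r m (x := x + a • e) (y := x + b • e) (s := (b - t) / (b - a))
      (t := (t - a) / (b - a))
      (by apply div_nonneg <;> linarith) (by apply div_nonneg <;> linarith) (by field_simp; ring)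
    have h4 : ((b - t) / (b - a)) • (x + a • e) + ((t - a) / (b - a)) • (x + b • e) =
        x + t • e := by
      have e1 : (b - t) / (b - a) + (t - a) / (b - a) = 1 := by field_simp; ring
      have e2 : (b - t) / (b - a) * a + (t - a) / (b - a) * b = t := by field_simp; ring
      calc _ = ((b - t) / (b - a) + (t - a) / (b - a)) • x +
            ((b - t) / (b - a) * a + (t - a) / (b - a) * b) • e := by
              simp only [smul_add, smul_smul, add_smul]; abel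
        _ = _ := by rw [e1, e2, one_smul]
    rwa [h4] at h3
  thr_le r x _ := S.thr_le_Dk r m x
  le_thr r x _ h1 := (S.Dk_lt_thr hm h1).le
  Dk_le r x _ := S.Dk_le_DD _ r hm x
  Dk_inv c r _ := S.Dk_inv c r hm
  Hn_meas c r := S.hn_meas c r m
  Hn_add c r _ y w hw := by
    exact S.hn_add c hw y
  child r y _ _ := S.harnack hm _ r y
  p_meas r := mu_meas hL
  p_add r hr x t := mu_layer_add hr he hLe t x
  moment r x hr hl := by
    have h1 := moment_sys hm hth (S.kl r m x) hl hab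
      (mu_meas (S := S) (m := m) (q := q) (r := S.kl r m x :: r) hL) x
    rw [mu_tower hr hL] at h1
    refine h1.trans (mul_le_mul' (ENNReal.ofReal_le_ofReal ?_) le_rfl)
    have h2 := S.finrank_succ_g hm (c := S.kl r m x) hl
    obtain ⟨d, hd⟩ : ∃ d, Module.finrank ℝ (S.W (S.kl r m x :: r) m) -
        Module.finrank ℝ (S.W r m) = d + 1 := ⟨_, (Nat.sub_add_cancel (by omega)).symm⟩
    rw [hd, pow_succ]
    calc S.kq ^ d * S.kq ≤ 1 * S.kq := by
          gcongr
          · exact S.kq_nonneg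
          · exact pow_le_one₀ S.kq_nonneg hk
      _ = S.kq := one_mul _

/-- payoff: lost mass of the layer over `Dc ^ th` (716's `gB`, layer transported from `q`) -/
noncomputable def gq (S : Sys E) (m : ℕ) (b : Bool) (q : List ℕ) (L : Set E) (e : E) (h : ℝ) :
    List ℕ → E → ℝ≥0∞ := S.gB m b (fun r => S.tr q r m ⁻¹' L) e h

lemma gq_meas (m : ℕ) (b : Bool) (q : List ℕ) {L : Set E} (hL : MeasurableSet L) (e : E) (h : ℝ)
    (r : List ℕ) : Measurable (S.gq m b q L e h r) := S.gB_meas m b (measurableSet_tr hL) e h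

/-- **(STAR') on the system.** -/
theorem star_sys {m : ℕ} (hm : S.mv.tm m < S.T) (hrot : S.mv.IsRot m) (hth : S.th = 1 / 2)
    (hk : S.kq ≤ 1) (b : Bool) {q : List ℕ} {e : E} (he : e ∈ S.W q m) {L : Set E}
    (hL : MeasurableSet L) (hLe : ∀ y ∈ L, ∀ t : ℝ, y + t • e ∈ L) {al be : ℝ}
    (hab : Pair al be) {h : ℝ} (hh : 0 ≤ h) (n : ℕ) {r : List ℕ} (hr : q <:+ r) (x : E) (J : ℕ) :
    ∑ j ∈ Finset.range (J + 1), H711.tau (S.fam m) (S.gq m b q L e h) n r
        (x + ((j : ℝ) * h) • e) ≤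
      2 * (12 * ENNReal.ofReal S.kq) ^ n *
        ((S.DD r m x ^ al + S.DD r m (x + ((J : ℝ) * h) • e) ^ al) * S.mu q L r m x ^ be) := by
  have hal : 0 ≤ al ∧ 1 / 4 ≤ al ∧ 0 ≤ be ∧ al + be = 1 / 2 := by
    rcases hab with ⟨rfl, rfl⟩ | ⟨rfl, rfl⟩ <;> norm_num
  refine H711.star (S.fam_str hm q) (famS_dir hm hth hk he hL hLe hab) hal.1
    (H711.sum_Tc_le S.hthr hal.2.1 S.cm) (gq_meas m b q hL e h) hh ?_ n r hr x J
  intro r hr x J
  refine (S.base_run (Or.inr hrot) b (measurableSet_tr hL) (S.W_mono hr m he)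
    (S.tr_layer hr he hLe) hh hal.1 hal.2.2.1 (by rw [hth, hal.2.2.2]; norm_num) x J).trans ?_
  have h1 : ENNReal.ofReal (1 / (1 - S.th)) = 2 := by
    rw [hth]; norm_num
  rw [h1]
  refine mul_le_mul' le_rfl (mul_le_mul' (ENNReal.rpow_le_rpow (S.Dc_self_le_DD r hm _) hal.1) ?_)
  exact le_rfl

/-- lattice runs inside the region of the classes `≥ 1` -/
theorem star_good {m : ℕ} (hm : S.mv.tm m < S.T) (hrot : S.mv.IsRot m) (hth : S.th = 1 / 2)
    (hk : S.kq ≤ 1) (b : Bool) {q : List ℕ} {e : E} (he : e ∈ S.W q m) {L : Set E}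
    (hL : MeasurableSet L) (hLe : ∀ y ∈ L, ∀ t : ℝ, y + t • e ∈ L) {al be : ℝ}
    (hab : Pair al be) {h : ℝ} (hh : 0 ≤ h) (n : ℕ) {r : List ℕ} (hr : q <:+ r) (x : E) (J : ℕ)
    (h0 : 1 ≤ S.kl r m x) (hJ : 1 ≤ S.kl r m (x + ((J : ℝ) * h) • e)) :
    ∑ j ∈ Finset.range (J + 1), H711.tau (S.fam m) (S.gq m b q L e h) n r
        (x + ((j : ℝ) * h) • e) ≤
      4 * (12 * ENNReal.ofReal S.kq) ^ n * S.mu q L r m x ^ be := by
  have hal : 0 ≤ al := by rcases hab with ⟨rfl, rfl⟩ | ⟨rfl, rfl⟩ <;> norm_num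
  have h1 : ∀ y, 1 ≤ S.kl r m y → S.DD r m y ≤ 1 := by
    intro y hy
    refine max_le (Finset.sup_le fun k _ => S.Dc_le_one r k y) ?_
    have h2 := (lt_of_lt_kl (S := S) (c := 0) (show 0 < S.kl r m y by omega)).2
    rw [thr_zero] at h2
    refine h2.le.trans ?_
    rw [← ENNReal.ofReal_one]
    exact ENNReal.ofReal_le_ofReal (by norm_num)
  refine (star_sys hm hrot hth hk b he hL hLe hab hh n hr x J).trans ?_
  have h2 : S.DD r m x ^ al ≤ 1 := ENNReal.rpow_le_one (h1 _ h0) hal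
  have h3 : S.DD r m (x + ((J : ℝ) * h) • e) ^ al ≤ 1 := ENNReal.rpow_le_one (h1 _ hJ) hal
  calc _ ≤ 2 * (12 * ENNReal.ofReal S.kq) ^ n * ((1 + 1) * S.mu q L r m x ^ be) := by gcongr
    _ = _ := by ring

/-- **(DIR) on the system.** -/
theorem dir_sys {m : ℕ} (hm : S.mv.tm m < S.T) (hrot : S.mv.IsRot m) (hth : S.th = 1 / 2)
    (hk : S.kq ≤ 1) (b : Bool) {p0 : List ℕ} {x0 : E} {c : ℕ} (hc : S.kl p0 m x0 = c)
    (hleaf : ¬ S.Leaf p0 m) {e : E} (he : e ∈ S.W (c :: p0) m) (he0 : e ∈ (S.W p0 m)ᗮ)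
    (he1 : ‖e‖ = 1) {L : Set E} (hL : MeasurableSet L)
    (hLe : ∀ y ∈ L, ∀ t : ℝ, y + t • e ∈ L) {al be : ℝ} (hab : Pair al be) {h : ℝ} (hh : 0 < h)
    (n : ℕ) :
    fib (S.W p0 m) (fun y => S.cw (c :: p0) m y *
        H711.tau (S.fam m) (S.gq m b (c :: p0) L e h) n (c :: p0) y) x0 ≤
      ENNReal.ofReal (40 * h) * (2 * (12 * ENNReal.ofReal S.kq) ^ n * S.Dk c p0 m x0 ^ al) *
        (ENNReal.ofReal (S.kq ^ (Module.finrank ℝ (S.W (c :: p0) m) -
          Module.finrank ℝ (S.W p0 m))) *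
          (fib (S.W p0 m) (S.mu (c :: p0) L (c :: p0) m) x0) ^ be) := by
  have hal : 0 ≤ al := by rcases hab with ⟨rfl, rfl⟩ | ⟨rfl, rfl⟩ <;> norm_num
  set d := Module.finrank ℝ (S.W (c :: p0) m) - Module.finrank ℝ (S.W p0 m) with hd
  have hkap := S.hkap
  have hw : ∀ y, S.cw (c :: p0) m y = ENNReal.ofReal ((S.kap ^ d) ^ (1 / 2 : ℝ) *
      Real.exp (1 / 16 * ‖H711.own (S.W p0 m) (S.W (c :: p0) m) y‖ ^ 2)) := by
    intro y
    rw [S.cw_half hth, ow_eq_own, ← hd]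
    congr 3
    ring
  have hhn : ∀ y, S.hn c p0 m y = ENNReal.ofReal (2 * Real.exp 9 *
      Real.exp (8 / 15 * ‖H711.own (S.W p0 m) (S.W (c :: p0) m) y‖ ^ 2)) := by
    intro y
    unfold hn
    rw [ow_eq_own, Real.exp_add, mul_assoc]
  have key := H711.dir (T := H711.tau (S.fam m) (S.gq m b (c :: p0) L e h) n (c :: p0))
    (S.W_le c p0 m) he he0 he1 (h := h) (a0 := 1 / 16) (η := 8 / 15) (α := al) (β := be)
    (A := 2 * Real.exp 9) (B := (S.kap ^ d) ^ (1 / 2 : ℝ)) (CL := 20) hal (by positivity)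
    (by positivity) (by norm_num) (by norm_num) hh.le (line_lemma he0 he1 hh hab)
    (H711.measurable_tau (S.fam_str hm (c :: p0)) (gq_meas m b (c :: p0) hL e h) n _)
    (D := S.DD (c :: p0) m) (p := S.mu (c :: p0) L (c :: p0) m)
    (Kn := 2 * (12 * ENNReal.ofReal S.kq) ^ n) (Dx := S.Dk c p0 m x0) (mu_meas hL)
    (fun x t => mu_layer_add (List.suffix_refl _) he hLe t x) (x0 := x0)
    (fun y _ J => star_sys hm hrot hth hk b he hL hLe hab hh.le n (List.suffix_refl _) y J)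
    (fun y hy => by
      have h1 : S.DD (c :: p0) m y ≤ S.hn c p0 m y * S.Dk c p0 m y := S.harnack hm c p0 y
      rw [(S.Dk_inv c p0 hm).eq_of hy, hhn y] at h1
      exact h1)
  have e1 : (fun y => S.cw (c :: p0) m y *
      H711.tau (S.fam m) (S.gq m b (c :: p0) L e h) n (c :: p0) y) = fun y =>
      ENNReal.ofReal ((S.kap ^ d) ^ (1 / 2 : ℝ) *
        Real.exp (1 / 16 * ‖H711.own (S.W p0 m) (S.W (c :: p0) m) y‖ ^ 2)) *
      H711.tau (S.fam m) (S.gq m b (c :: p0) L e h) n (c :: p0) y := by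
    funext y; rw [hw]
  rw [e1]
  refine key.trans ?_
  have h3 := moment_sys hm hth c hleaf hab
    (mu_meas (S := S) (m := m) (q := c :: p0) (r := c :: p0) hL) x0
  have e2 : (fun y => S.cw (c :: p0) m y * (S.hn c p0 m y ^ al *
      S.mu (c :: p0) L (c :: p0) m y ^ be)) = fun y =>
      ENNReal.ofReal ((S.kap ^ d) ^ (1 / 2 : ℝ) *
        Real.exp (1 / 16 * ‖H711.own (S.W p0 m) (S.W (c :: p0) m) y‖ ^ 2)) *
      (ENNReal.ofReal (2 * Real.exp 9 *
        Real.exp (8 / 15 * ‖H711.own (S.W p0 m) (S.W (c :: p0) m) y‖ ^ 2)) ^ al *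
        S.mu (c :: p0) L (c :: p0) m y ^ be) := by
    funext y; rw [hw, hhn]
  rw [e2] at h3
  refine mul_le_mul' (le_of_eq ?_) h3
  norm_num

end Vale.Agent.P262.M2.Sys
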