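import Mathlib
import Vale.Agent.P262.H711.Star

/-!
# P262, milestone 2: the sum over the classes (thresholds `exp (1 - 4 ^ c) / 10`)
-/

set_option linter.all false

open MeasureTheory ProbabilityTheory Set
open scoped ENNReal

namespace Vale.Agent.P262.H711

/-- ratio of thresholds -/
lemma thr_ratio {thr : ℕ → ℝ≥0∞} (hthr : ∀ c, thr c = ENNReal.ofReal (Real.exp (1 - 4 ^ c) / 10))
    (a i : ℕ) : thr (a + i) ≤ thr a * ENNReal.ofReal (Real.exp (-(3 * i))) := by
  rw [hthr, hthr, ← ENNReal.ofReal_mul (by positivity)]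
  apply ENNReal.ofReal_le_ofReal
  rw [div_mul_eq_mul_div, ← Real.exp_add]
  have h1 : (4 : ℝ) ^ a + 3 * i ≤ 4 ^ (a + i) := by
    have h2 : (1 : ℝ) ≤ 4 ^ a := one_le_pow₀ (by norm_num)
    have h3 : (1 : ℝ) + i * 3 ≤ 4 ^ i := by
      have := one_add_mul_le_pow (a := (3 : ℝ)) (by norm_num) i
      norm_num at this ⊢
      linarith
    rw [pow_add]
    nlinarith
  have h4 : Real.exp (1 - 4 ^ (a + i)) ≤ Real.exp (1 - 4 ^ a + -(3 * (i : ℝ))) :=
    Real.exp_le_exp.2 (by linarith)
  linarith [h4, div_le_div_of_nonneg_right h4 (by norm_num : (0 : ℝ) ≤ 10)]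

lemma exp_34 : Real.exp (-(3 / 4)) ≤ 1 / 2 := by
  rw [Real.exp_neg, inv_le_comm₀ (Real.exp_pos _) (by norm_num)]
  have := Real.add_one_le_exp (3 / 4 : ℝ)
  have h2 := Real.quadratic_le_exp_of_nonneg (x := 3 / 4) (by norm_num)
  norm_num at h2 ⊢
  linarith

/-- sum of the powers of the thresholds below `d` -/
lemma sum_thr_le {thr : ℕ → ℝ≥0∞} (hthr : ∀ c, thr c = ENNReal.ofReal (Real.exp (1 - 4 ^ c) / 10))
    {α : ℝ} (hα : 1 / 4 ≤ α) (a n : ℕ) :
    ∑ i ∈ Finset.range n, thr (a + i) ^ α ≤ 2 * thr a ^ α := by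
  have h0 : 0 ≤ α := by linarith
  have h1 : ∀ i : ℕ, thr (a + i) ^ α ≤ thr a ^ α * ENNReal.ofReal (1 / 2) ^ i := by
    intro i
    calc thr (a + i) ^ α ≤ (thr a * ENNReal.ofReal (Real.exp (-(3 * i)))) ^ α :=
          ENNReal.rpow_le_rpow (thr_ratio hthr a i) h0
      _ = thr a ^ α * ENNReal.ofReal (Real.exp (-(3 * i))) ^ α :=
          ENNReal.mul_rpow_of_nonneg _ _ h0
      _ ≤ _ := by
        gcongr
        rw [ENNReal.ofReal_rpow_of_nonneg (Real.exp_pos _).le h0,
          ← ENNReal.ofReal_pow (by norm_num)]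
        apply ENNReal.ofReal_le_ofReal
        rw [← Real.exp_mul]
        calc Real.exp (-(3 * (i : ℝ)) * α) ≤ Real.exp (i * (-(3 / 4))) := by
              apply Real.exp_le_exp.2
              have : (0 : ℝ) ≤ i := by positivity
              nlinarith
          _ = Real.exp (-(3 / 4)) ^ i := by rw [← Real.exp_nat_mul]
          _ ≤ (1 / 2) ^ i := pow_le_pow_left₀ (Real.exp_pos _).le exp_34 i
  calc ∑ i ∈ Finset.range n, thr (a + i) ^ α
      ≤ ∑ i ∈ Finset.range n, thr a ^ α * ENNReal.ofReal (1 / 2) ^ i :=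
        Finset.sum_le_sum fun i _ => h1 i
    _ = thr a ^ α * ∑ i ∈ Finset.range n, ENNReal.ofReal (1 / 2) ^ i := by rw [Finset.mul_sum]
    _ ≤ thr a ^ α * 2 := by
        gcongr
        have e1 : ∑ i ∈ Finset.range n, ENNReal.ofReal (1 / 2) ^ i =
            ENNReal.ofReal (∑ i ∈ Finset.range n, (1 / 2 : ℝ) ^ i) := by
          rw [ENNReal.ofReal_sum_of_nonneg fun i _ => by positivity]
          refine Finset.sum_congr rfl fun i _ => ?_
          rw [ENNReal.ofReal_pow (by norm_num)]
        rw [e1]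
        have e2 : ∑ i ∈ Finset.range n, (1 / 2 : ℝ) ^ i ≤ 2 := by
          rw [geom_sum_eq (by norm_num)]
          have : (0 : ℝ) ≤ (1 / 2) ^ n := by positivity
          rw [div_le_iff_of_neg (by norm_num)]
          linarith
        calc ENNReal.ofReal (∑ i ∈ Finset.range n, (1 / 2 : ℝ) ^ i) ≤ ENNReal.ofReal 2 :=
              ENNReal.ofReal_le_ofReal e2
          _ = 2 := by norm_num
    _ = 2 * thr a ^ α := by rw [mul_comm]

/-- **the sum over the classes which occur is geometric.** -/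
theorem sum_Tc_le {thr : ℕ → ℝ≥0∞} (hthr : ∀ c, thr c = ENNReal.ofReal (Real.exp (1 - 4 ^ c) / 10))
    {α : ℝ} (hα : 1 / 4 ≤ α) (N : ℕ) (d : ℝ≥0∞) :
    ∑ c ∈ Finset.Icc 0 N, Tc thr α d c ≤ 3 * d ^ α := by
  classical
  have h0 : 0 ≤ α := by linarith
  by_cases hE : ∃ c, thr c ≤ d
  · obtain ⟨a, ha, hmin⟩ : ∃ a, thr a ≤ d ∧ ∀ c < a, ¬ thr c ≤ d :=
      ⟨Nat.find hE, Nat.find_spec hE, fun c hc => Nat.find_min hE hc⟩
    have h1 : ∀ c ∈ Finset.Icc 0 N, Tc thr α d c ≤
        (if c = a then d ^ α else 0) + (if a < c then thr (c - 1) ^ α else 0) := by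
      intro c _
      rcases lt_trichotomy c a with hca | hca | hca
      · unfold Tc; rw [if_neg (hmin c hca)]; exact zero_le
      · subst hca
        rw [if_pos rfl]
        refine le_trans ?_ le_self_add
        unfold Tc
        split_ifs
        · exact le_rfl
        · exact ENNReal.rpow_le_rpow (min_le_right _ _) h0
      · rw [if_pos hca]
        refine le_trans ?_ le_add_self
        unfold Tc
        split_ifs with h2 h3
        · omega
        · exact ENNReal.rpow_le_rpow (min_le_left _ _) h0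
        · exact zero_le
    refine (Finset.sum_le_sum h1).trans ?_
    rw [Finset.sum_add_distrib]
    have h2 : ∑ c ∈ Finset.Icc 0 N, (if c = a then d ^ α else 0) ≤ d ^ α := by
      rw [Finset.sum_ite_eq' (Finset.Icc 0 N) a (fun _ => d ^ α)]
      split_ifs
      · exact le_rfl
      · exact zero_le
    have h3 : ∑ c ∈ Finset.Icc 0 N, (if a < c then thr (c - 1) ^ α else 0) ≤
        ∑ i ∈ Finset.range (N + 1), thr (a + i) ^ α := by
      rw [← Finset.sum_filter]
      have h4 : ∀ c ∈ (Finset.Icc 0 N).filter (fun c => a < c), thr (c - 1) ^ α =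
          (fun i => thr (a + i) ^ α) (c - 1 - a) := by
        intro c hc
        simp only [Finset.mem_filter, Finset.mem_Icc] at hc
        simp only
        congr 2
        omega
      rw [Finset.sum_congr rfl h4, ← Finset.sum_image (g := fun c => c - 1 - a)
        (f := fun i => thr (a + i) ^ α)]
      · refine Finset.sum_le_sum_of_subset fun i hi => ?_
        simp only [Finset.mem_image, Finset.mem_filter, Finset.mem_Icc, Finset.mem_range] at hi ⊢
        obtain ⟨c, hc, rfl⟩ := hi
        omega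
      · intro c hc c' hc' hcc
        simp only [Finset.coe_filter, Finset.mem_Icc, Set.mem_setOf_eq] at hc hc'
        simp only at hcc
        omega
    have h5 := sum_thr_le hthr hα a (N + 1)
    have h6 : thr a ^ α ≤ d ^ α := ENNReal.rpow_le_rpow ha h0
    calc _ ≤ d ^ α + 2 * thr a ^ α := add_le_add h2 (h3.trans h5)
      _ ≤ d ^ α + 2 * d ^ α := by gcongr
      _ = 3 * d ^ α := by ring
  · push Not at hE
    have : ∀ c ∈ Finset.Icc 0 N, Tc thr α d c = 0 := fun c _ => by
      unfold Tc; rw [if_neg (not_le.2 (hE c))]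
    rw [Finset.sum_congr rfl this, Finset.sum_const_zero]
    exact zero_le

end Vale.Agent.P262.H711
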