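import Mathlib
import Vale.Agent.P262.H711.Sum3

/-!
# P262, milestone 2: one direction (DIR)

`fib W0 (wt * tau n r0) x0` for a label direction `e` of the child node `r0`, from the lattice sum
bound (STAR') along `e`, Harnack from `x0` and the line lemma.
-/

set_option linter.all false

open MeasureTheory ProbabilityTheory Set
open scoped ENNReal RealInnerProductSpace
open Vale.Agent.P262.H395 (fib mix Inv)
open Vale.Agent.P262.H395.Tree (InvN)

namespace Vale.Agent.P262.H711

variable {E : Type*} [NormedAddCommGroup E] [InnerProductSpace ℝ E] [FiniteDimensional ℝ E]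
  [MeasurableSpace E] [BorelSpace E]

/-- own coordinates of `W` over `W0` -/
noncomputable def own (W0 W : Submodule ℝ E) (y : E) : E :=
  W.starProjection y - W0.starProjection y

lemma own_add_mem {W0 W : Submodule ℝ E} (h : W0 ≤ W) {w : E} (hw : w ∈ W0) (y : E) :
    own W0 W (y + w) = own W0 W y := by
  unfold own
  rw [map_add, map_add, Submodule.starProjection_eq_self_iff.mpr hw,
    Submodule.starProjection_eq_self_iff.mpr (h hw)]
  abel

lemma own_add_dir {W0 W : Submodule ℝ E} {e : E} (he : e ∈ W) (he0 : e ∈ W0ᗮ) (y : E) (t : ℝ) :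
    own W0 W (y + t • e) = own W0 W y + t • e := by
  unfold own
  rw [map_add, map_add, map_smul, map_smul, Submodule.starProjection_eq_self_iff.mpr he,
    H395.proj_eq_zero he0, smul_zero]
  abel

lemma inner_own {W0 W : Submodule ℝ E} {e : E} (he : e ∈ W) (he0 : e ∈ W0ᗮ) (y : E) :
    ⟪e, own W0 W y⟫ = ⟪e, y⟫ := by
  unfold own
  rw [inner_sub_right]
  have h1 : ⟪e, W.starProjection y⟫ = ⟪e, y⟫ := by
    have := Submodule.inner_starProjection_left_eq_right W e y
    rw [Submodule.starProjection_eq_self_iff.mpr he] at this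
    exact this.symm
  have h2 : ⟪e, W0.starProjection y⟫ = 0 := by
    rw [real_inner_comm]
    exact (Submodule.mem_orthogonal _ _).1 he0 _ (Submodule.starProjection_apply_mem W0 y)
  rw [h1, h2, sub_zero]

/-- squared norm of the own coordinates orthogonal to `e` -/
noncomputable def oq (W0 W : Submodule ℝ E) (e y : E) : ℝ := ‖own W0 W y‖ ^ 2 - ⟪e, y⟫ ^ 2

lemma oq_add_dir {W0 W : Submodule ℝ E} {e : E} (he : e ∈ W) (he0 : e ∈ W0ᗮ) (h1 : ‖e‖ = 1)
    (y : E) (t : ℝ) : oq W0 W e (y + t • e) = oq W0 W e y := by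
  unfold oq
  rw [own_add_dir he he0, norm_add_sq_real, inner_add_right, real_inner_smul_right,
    real_inner_smul_right, real_inner_self_eq_norm_sq, h1, norm_smul, h1,
    real_inner_comm, inner_own he he0, Real.norm_eq_abs]
  rw [show (|t| * 1) ^ 2 = t ^ 2 by rw [mul_one, sq_abs]]
  ring

lemma oq_le (W0 W : Submodule ℝ E) (e y : E) : oq W0 W e y ≤ ‖own W0 W y‖ ^ 2 := by
  unfold oq
  have := sq_nonneg ⟪e, y⟫
  linarith

lemma continuous_own (W0 W : Submodule ℝ E) : Continuous (own W0 W) := by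
  unfold own; fun_prop

lemma continuous_oq (W0 W : Submodule ℝ E) (e : E) : Continuous (oq W0 W e) := by
  unfold oq
  have := continuous_own W0 W
  fun_prop

/-- the line lemma (`H816`, (L4)) as a statement -/
def LineLemma (W0 : Submodule ℝ E) (e : E) (h a0 c CL : ℝ) : Prop :=
  ∀ (w τ g : E → ℝ≥0∞), Measurable w → Measurable τ → Measurable g →
    (∀ x (t : ℝ), w (x + t • e) = w x) → (∀ x (t : ℝ), g (x + t • e) = g x) →
    (∀ (k : ℕ) x (J : ℕ), -((k : ℝ) + 1) < ⟪e, x⟫ → ⟪e, x⟫ + J * h < k + 1 →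
      ∑ j ∈ Finset.range (J + 1), τ (x + ((j : ℝ) * h) • e) ≤
        ENNReal.ofReal (Real.exp (c * (k + 1) ^ 2)) * g x) →
    ∀ x0, fib W0 (fun y => ENNReal.ofReal (Real.exp (a0 * ⟪e, y⟫ ^ 2)) * (w y * τ y)) x0 ≤
      ENNReal.ofReal (CL * h) * fib W0 (fun y => w y * g y) x0

variable {ι : Type*}

/-- **(DIR), abstract.** -/
theorem dir {T : E → ℝ≥0∞} {W0 W : Submodule ℝ E} (hW : W0 ≤ W) {e : E} (he : e ∈ W)
    (he0 : e ∈ W0ᗮ) (he1 : ‖e‖ = 1) {h a0 η α β A B CL : ℝ} (hα : 0 ≤ α) (hA : 0 ≤ A) (hB : 0 ≤ B)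
    (ha0 : 0 ≤ a0) (hη : 0 ≤ η) (hh : 0 ≤ h) (hL : LineLemma W0 e h a0 (α * η) CL)
    (hT : Measurable T) {D p : E → ℝ≥0∞} {Kn Dx : ℝ≥0∞} (hp : Measurable p)
    (hpe : ∀ x (t : ℝ), p (x + t • e) = p x) {x0 : E}
    (hstar : ∀ y, W0.starProjection y = W0.starProjection x0 → ∀ J : ℕ,
      ∑ j ∈ Finset.range (J + 1), T (y + ((j : ℝ) * h) • e) ≤
        Kn * ((D y ^ α + D (y + ((J : ℝ) * h) • e) ^ α) * p y ^ β))
    (hchild : ∀ y, W0.starProjection y = W0.starProjection x0 →
      D y ≤ ENNReal.ofReal (A * Real.exp (η * ‖own W0 W y‖ ^ 2)) * Dx) :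
    fib W0 (fun y => ENNReal.ofReal (B * Real.exp (a0 * ‖own W0 W y‖ ^ 2)) * T y) x0 ≤
      ENNReal.ofReal (2 * CL * h) * (Kn * Dx ^ α) *
        fib W0 (fun y => ENNReal.ofReal (B * Real.exp (a0 * ‖own W0 W y‖ ^ 2)) *
          (ENNReal.ofReal (A * Real.exp (η * ‖own W0 W y‖ ^ 2)) ^ α * p y ^ β)) x0 := by
  classical
  set F : Set E := {y | W0.starProjection y = W0.starProjection x0} with hF
  have hFm : MeasurableSet F :=
    (isClosed_eq (by fun_prop) continuous_const).measurableSet
  set τ : E → ℝ≥0∞ := F.indicator T with hτ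
  set w : E → ℝ≥0∞ := fun y => ENNReal.ofReal (B * Real.exp (a0 * oq W0 W e y)) with hw
  set g : E → ℝ≥0∞ := fun y => 2 * Kn * Dx ^ α *
    (ENNReal.ofReal (A * Real.exp (η * oq W0 W e y)) ^ α * p y ^ β) with hg
  have hcq := continuous_oq W0 W e
  have hwm : Measurable w := by
    apply ENNReal.measurable_ofReal.comp
    exact (Continuous.measurable (by fun_prop))
  have hgm : Measurable g := by
    refine Measurable.const_mul ?_ _
    refine Measurable.mul ?_ (hp.pow_const _)
    refine Measurable.pow_const ?_ _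
    apply ENNReal.measurable_ofReal.comp
    exact (Continuous.measurable (by fun_prop))
  have hτm : Measurable τ := hT.indicator hFm
  have hFe : ∀ y (t : ℝ), y + t • e ∈ F ↔ y ∈ F := by
    intro y t
    simp only [hF, mem_setOf_eq, map_add, map_smul, H395.proj_eq_zero he0, smul_zero, add_zero]
  have key := hL w τ g hwm hτm hgm
    (fun x t => by simp only [hw]; rw [oq_add_dir he he0 he1])
    (fun x t => by simp only [hg]; rw [oq_add_dir he he0 he1, hpe])
    (by
      intro k x J h1 h2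
      by_cases hx : x ∈ F
      · have e1 : ∀ j ∈ Finset.range (J + 1), τ (x + ((j : ℝ) * h) • e) =
            T (x + ((j : ℝ) * h) • e) := fun j _ => by
          simp only [hτ]
          rw [indicator_of_mem ((hFe x _).2 hx)]
        rw [Finset.sum_congr rfl e1]
        refine (hstar x hx J).trans ?_
        have hsq : ∀ s : ℝ, -((k : ℝ) + 1) < s → s < k + 1 → s ^ 2 ≤ (k + 1) ^ 2 := by
          intro s h3 h4
          nlinarith
        have hb : ∀ y, y ∈ F → oq W0 W e y = oq W0 W e x → -((k : ℝ) + 1) < ⟪e, y⟫ →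
            ⟪e, y⟫ < k + 1 → D y ^ α ≤ ENNReal.ofReal (Real.exp (α * η * (k + 1) ^ 2)) *
              (ENNReal.ofReal (A * Real.exp (η * oq W0 W e x)) ^ α * Dx ^ α) := by
          intro y hy hyq h3 h4
          have h5 := hchild y hy
          have h6 : ‖own W0 W y‖ ^ 2 ≤ oq W0 W e x + (k + 1) ^ 2 := by
            rw [← hyq]; unfold oq
            have := hsq _ h3 h4
            linarith
          have h7 : ENNReal.ofReal (A * Real.exp (η * ‖own W0 W y‖ ^ 2)) ≤
              ENNReal.ofReal (Real.exp (η * (k + 1) ^ 2)) *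
                ENNReal.ofReal (A * Real.exp (η * oq W0 W e x)) := by
            rw [← ENNReal.ofReal_mul (by positivity)]
            apply ENNReal.ofReal_le_ofReal
            calc A * Real.exp (η * ‖own W0 W y‖ ^ 2)
                ≤ A * Real.exp (η * (k + 1) ^ 2 + η * oq W0 W e x) := by
                  gcongr
                  nlinarith
              _ = _ := by rw [Real.exp_add]; ring
          calc D y ^ α ≤ (ENNReal.ofReal (Real.exp (η * (k + 1) ^ 2)) *
                ENNReal.ofReal (A * Real.exp (η * oq W0 W e x)) * Dx) ^ α := by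
                refine ENNReal.rpow_le_rpow (h5.trans ?_) hα
                gcongr
            _ = _ := by
              rw [mul_assoc, ENNReal.mul_rpow_of_nonneg _ _ hα,
                ENNReal.mul_rpow_of_nonneg _ _ hα,
                ENNReal.ofReal_rpow_of_nonneg (Real.exp_pos _).le hα, ← Real.exp_mul,
                show η * ((k : ℝ) + 1) ^ 2 * α = α * η * (k + 1) ^ 2 by ring]
        have hJh : 0 ≤ (J : ℝ) * h := by positivity
        have h8 := hb x hx rfl h1 (by linarith)
        have hin : ⟪e, x + ((J : ℝ) * h) • e⟫ = ⟪e, x⟫ + J * h := by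
          rw [inner_add_right, real_inner_smul_right, real_inner_self_eq_norm_sq, he1]; ring
        have h9 := hb (x + ((J : ℝ) * h) • e) ((hFe x _).2 hx) (oq_add_dir he he0 he1 _ _)
          (by rw [hin]; linarith) (by rw [hin]; exact h2)
        calc Kn * ((D x ^ α + D (x + ((J : ℝ) * h) • e) ^ α) * p x ^ β)
            ≤ Kn * ((ENNReal.ofReal (Real.exp (α * η * (k + 1) ^ 2)) *
              (ENNReal.ofReal (A * Real.exp (η * oq W0 W e x)) ^ α * Dx ^ α) +
              ENNReal.ofReal (Real.exp (α * η * (k + 1) ^ 2)) *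
              (ENNReal.ofReal (A * Real.exp (η * oq W0 W e x)) ^ α * Dx ^ α)) * p x ^ β) := by
              gcongr
          _ = _ := by simp only [hg]; ring
      · have e1 : ∀ j ∈ Finset.range (J + 1), τ (x + ((j : ℝ) * h) • e) = 0 := fun j _ => by
          simp only [hτ]
          rw [indicator_of_notMem (fun h3 => hx ((hFe x _).1 h3))]
        rw [Finset.sum_congr rfl e1, Finset.sum_const_zero]
        exact zero_le) x0
  have hleft : fib W0 (fun y => ENNReal.ofReal (B * Real.exp (a0 * ‖own W0 W y‖ ^ 2)) * T y) x0 =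
      fib W0 (fun y => ENNReal.ofReal (Real.exp (a0 * ⟪e, y⟫ ^ 2)) * (w y * τ y)) x0 := by
    unfold Vale.Agent.P262.H395.fib
    refine lintegral_congr fun z => ?_
    have hz : mix W0 x0 z ∈ F := H395.starProjection_mix W0 x0 z
    simp only [hτ, hw]
    rw [indicator_of_mem hz, ← mul_assoc, ← ENNReal.ofReal_mul (Real.exp_pos _).le]
    congr 2
    rw [show B * Real.exp (a0 * ‖own W0 W (mix W0 x0 z)‖ ^ 2) =
      B * Real.exp (a0 * ⟪e, mix W0 x0 z⟫ ^ 2 + a0 * oq W0 W e (mix W0 x0 z)) by
        unfold oq; ring_nf, Real.exp_add]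
    ring
  rw [hleft]
  refine key.trans ?_
  have hright : ∀ y, w y * g y ≤ (2 * (Kn * Dx ^ α)) *
      (ENNReal.ofReal (B * Real.exp (a0 * ‖own W0 W y‖ ^ 2)) *
        (ENNReal.ofReal (A * Real.exp (η * ‖own W0 W y‖ ^ 2)) ^ α * p y ^ β)) := by
    intro y
    have hq := oq_le W0 W e y
    have h1 : w y ≤ ENNReal.ofReal (B * Real.exp (a0 * ‖own W0 W y‖ ^ 2)) := by
      apply ENNReal.ofReal_le_ofReal
      gcongr
    have h2 : ENNReal.ofReal (A * Real.exp (η * oq W0 W e y)) ^ α ≤
        ENNReal.ofReal (A * Real.exp (η * ‖own W0 W y‖ ^ 2)) ^ α := by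
      refine ENNReal.rpow_le_rpow (ENNReal.ofReal_le_ofReal ?_) hα
      gcongr
    calc w y * g y ≤ ENNReal.ofReal (B * Real.exp (a0 * ‖own W0 W y‖ ^ 2)) *
          (2 * Kn * Dx ^ α * (ENNReal.ofReal (A * Real.exp (η * ‖own W0 W y‖ ^ 2)) ^ α *
            p y ^ β)) := by simp only [hg]; gcongr
      _ = _ := by ring
  have hcown := continuous_own W0 W
  have hm : Measurable fun y => ENNReal.ofReal (B * Real.exp (a0 * ‖own W0 W y‖ ^ 2)) *
      (ENNReal.ofReal (A * Real.exp (η * ‖own W0 W y‖ ^ 2)) ^ α * p y ^ β) := by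
    refine Measurable.mul ?_ (Measurable.mul (Measurable.pow_const ?_ _) (hp.pow_const _))
    · exact ENNReal.measurable_ofReal.comp (Continuous.measurable (by fun_prop))
    · exact ENNReal.measurable_ofReal.comp (Continuous.measurable (by fun_prop))
  calc ENNReal.ofReal (CL * h) * fib W0 (fun y => w y * g y) x0
      ≤ ENNReal.ofReal (CL * h) * fib W0 (fun y => (2 * (Kn * Dx ^ α)) *
        (ENNReal.ofReal (B * Real.exp (a0 * ‖own W0 W y‖ ^ 2)) *
        (ENNReal.ofReal (A * Real.exp (η * ‖own W0 W y‖ ^ 2)) ^ α * p y ^ β))) x0 := by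
        gcongr
        exact H395.fib_mono hright x0
    _ = ENNReal.ofReal (CL * h) * ((2 * (Kn * Dx ^ α)) * fib W0 (fun y =>
        ENNReal.ofReal (B * Real.exp (a0 * ‖own W0 W y‖ ^ 2)) *
        (ENNReal.ofReal (A * Real.exp (η * ‖own W0 W y‖ ^ 2)) ^ α * p y ^ β)) x0) := by
        rw [H395.fib_mul (g := fun _ => 2 * (Kn * Dx ^ α)) (H395.inv_const _ _) hm]
    _ = _ := by
        rw [show 2 * CL * h = 2 * (CL * h) by ring,
          ENNReal.ofReal_mul (p := 2) (q := CL * h) (by norm_num),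
          show ENNReal.ofReal 2 = 2 by norm_num]
        ring

end Vale.Agent.P262.H711
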